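import Vale.Agent.P272.K.Inv.Chart

/-!
# P298, row R0-K: the Fubini-Study potential in coordinates

For a nowhere zero holomorphic map `S : ℂⁿ → ℂ^κ`, immersive modulo scaling, the complex Hessian of
`log |S|²` is positive definite.
-/

open scoped Manifold ContDiff ComplexOrder Topology
open Vale.Agent.P272.K

noncomputable section

namespace Vale.Agent.P298.H265

variable {n : ℕ} {κ : Type} [Fintype κ]

/-- squared norm -/
def nv (v : κ → ℂ) : ℝ := ∑ i, ‖v i‖ ^ 2

/-- hermitian product, linear in the first variable -/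
def hv (u v : κ → ℂ) : ℂ := ∑ i, u i * cj (v i)

lemma nv_nonneg (v : κ → ℂ) : 0 ≤ nv v := Finset.sum_nonneg fun _ _ => by positivity

lemma nv_pos {v : κ → ℂ} (hv : v ≠ 0) : 0 < nv v := by
  obtain ⟨i, hi⟩ := Function.ne_iff.mp hv
  refine Finset.sum_pos' (fun i _ => by positivity) ⟨i, Finset.mem_univ _, ?_⟩
  exact pow_pos (norm_pos_iff.mpr hi) 2

lemma nv_smul (c : ℂ) (v : κ → ℂ) : nv (c • v) = ‖c‖ ^ 2 * nv v := by
  simp [nv, Finset.mul_sum, mul_pow]

lemma hv_self (v : κ → ℂ) : hv v v = (nv v : ℂ) := by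
  simp only [hv, nv, Complex.ofReal_sum]
  refine Finset.sum_congr rfl fun i _ => ?_
  rw [cj, Complex.mul_conj, Complex.normSq_eq_norm_sq]

lemma hv_cj (u v : κ → ℂ) : cj (hv u v) = hv v u := by
  simp only [hv, cj, map_sum, map_mul, Complex.conj_conj]
  exact Finset.sum_congr rfl fun i _ => mul_comm _ _

lemma hv_sum_left {ι : Type} (s : Finset ι) (c : ι → ℂ) (u : ι → κ → ℂ) (v : κ → ℂ) :
    hv (∑ j ∈ s, c j • u j) v = ∑ j ∈ s, c j * hv (u j) v := by
  simp only [hv, Finset.mul_sum, Finset.sum_apply, Pi.smul_apply, smul_eq_mul, Finset.sum_mul]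
  rw [Finset.sum_comm]
  exact Finset.sum_congr rfl fun i _ => Finset.sum_congr rfl fun j _ => by ring

lemma hv_sum_right {ι : Type} (s : Finset ι) (c : ι → ℂ) (u : ι → κ → ℂ) (v : κ → ℂ) :
    hv v (∑ j ∈ s, c j • u j) = ∑ j ∈ s, cj (c j) * hv v (u j) := by
  rw [← hv_cj, hv_sum_left]
  simp only [cj, map_sum, map_mul]
  exact Finset.sum_congr rfl fun j _ => by rw [← hv_cj (u j) v]

/-- completing the square -/
lemma hv_square (T S : κ → ℂ) (hS : S ≠ 0) :
    (nv S : ℂ) * hv T T - hv S T * hv T S =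
      (nv S : ℂ) * (nv (T - (hv T S / (nv S : ℂ)) • S) : ℂ) := by
  have h0 : (nv S : ℂ) ≠ 0 := by exact_mod_cast (nv_pos hS).ne'
  have e1 : ∀ c : ℂ, hv (T - c • S) (T - c • S) =
      hv T T - c * hv S T - cj c * hv T S + c * cj c * hv S S := by
    intro c
    simp only [hv, Finset.mul_sum, ← Finset.sum_sub_distrib, ← Finset.sum_add_distrib]
    refine Finset.sum_congr rfl fun i _ => ?_
    simp only [cj, Pi.sub_apply, Pi.smul_apply, smul_eq_mul, map_sub, map_mul]
    ring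
  rw [← hv_self (T - _), e1, hv_self S]
  have h2 : cj (hv T S / (nv S : ℂ)) = hv S T / (nv S : ℂ) := by
    rw [← hv_cj T S]
    simp [cj]
  rw [h2]
  field_simp
  ring

lemma contDiffAt_nv {S : Cm n → κ → ℂ} {z : Cm n} {r : WithTop ℕ∞}
    (h : ContDiffAt ℝ r S z) : ContDiffAt ℝ r (fun y => nv (S y)) z := by
  unfold nv
  exact ContDiffAt.sum fun i _ => ((contDiffAt_pi.mp h) i).norm_sq ℝ

/-- the potential -/
def pot (S : Cm n → κ → ℂ) (y : Cm n) : ℝ := Real.log (nv (S y))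

lemma contDiffAt_pot {S : Cm n → κ → ℂ} {z : Cm n} {r : WithTop ℕ∞}
    (h : ContDiffAt ℝ r S z) (h0 : S z ≠ 0) : ContDiffAt ℝ r (pot S) z :=
  (contDiffAt_nv h).log (nv_pos h0).ne'

lemma fderiv_ofReal {g : Cm n → ℝ} {z : Cm n} (hg : DifferentiableAt ℝ g z) (v : Cm n) :
    fderiv ℝ (fun y => ((g y : ℝ) : ℂ)) z v = ((fderiv ℝ g z v : ℝ) : ℂ) := by
  have h := Complex.ofRealCLM.hasFDerivAt.comp z hg.hasFDerivAt
  have h2 : HasFDerivAt (fun y => ((g y : ℝ) : ℂ)) (Complex.ofRealCLM.comp (fderiv ℝ g z)) z := h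
  rw [h2.fderiv]
  rfl

lemma dzb_log {g : Cm n → ℝ} {z : Cm n} (hg : DifferentiableAt ℝ g z) (h0 : g z ≠ 0)
    (k : Fin n) : dzb k (fun y => ((Real.log (g y) : ℝ) : ℂ)) z * (g z : ℂ) =
      dzb k (fun y => ((g y : ℝ) : ℂ)) z := by
  have h1 : DifferentiableAt ℝ (fun y => Real.log (g y)) z := hg.log h0
  have h2 : ∀ v, fderiv ℝ (fun y => Real.log (g y)) z v = (g z)⁻¹ * fderiv ℝ g z v := by
    intro v
    rw [(hg.hasFDerivAt.log h0).fderiv]
    rfl
  unfold dzb
  rw [fderiv_ofReal h1, fderiv_ofReal h1, fderiv_ofReal hg, fderiv_ofReal hg, h2, h2]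
  have h3 : ((g z : ℝ) : ℂ) ≠ 0 := by exact_mod_cast h0
  push_cast
  field_simp

section
variable {S : Cm n → κ → ℂ} {z : Cm n}

/-- the vector `∂S/∂z_j` -/
def dS (S : Cm n → κ → ℂ) (z : Cm n) (j : Fin n) : κ → ℂ := fun i => dz j (fun y => S y i) z

lemma holo_apply (h : ContDiffAt ℂ ω S z) (i : κ) : ContDiffAt ℂ ω (fun y => S y i) z :=
  (contDiffAt_pi.mp h) i

lemma diffR (h : ContDiffAt ℂ ω S z) (i : κ) : DifferentiableAt ℝ (fun y => S y i) z :=
  ((holo_apply h i).differentiableAt (by simp)).restrictScalars ℝ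

lemma nv_fun (S : Cm n → κ → ℂ) : (fun y => ((nv (S y) : ℝ) : ℂ)) =
    fun y => ∑ i, S y i * cj (S y i) := by
  funext y
  rw [← hv_self]
  rfl

lemma diffR_cj {f : Cm n → ℂ} (h : DifferentiableAt ℝ f z) :
    DifferentiableAt ℝ (fun y => cj (f y)) z := Complex.conjCLE.differentiableAt.comp z h

lemma dzb_nv (h : ContDiffAt ℂ ω S z) (k : Fin n) :
    dzb k (fun y => ((nv (S y) : ℝ) : ℂ)) z = hv (S z) (dS S z k) := by
  rw [nv_fun, dzb_sum (F := fun i y => S y i * cj (S y i)) Finset.univ fun i _ =>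
    (diffR h i).mul (diffR_cj (diffR h i))]
  refine Finset.sum_congr rfl fun i _ => ?_
  rw [dzb_mul (diffR h i) (diffR_cj (diffR h i)),
    dzb_of_holo ((holo_apply h i).differentiableAt (by simp)), dzb_cj (diffR h i)]
  simp [dS]

lemma dz_nv (h : ContDiffAt ℂ ω S z) (k : Fin n) :
    dz k (fun y => ((nv (S y) : ℝ) : ℂ)) z = hv (dS S z k) (S z) := by
  rw [nv_fun, dz_sum (F := fun i y => S y i * cj (S y i)) Finset.univ fun i _ =>
    (diffR h i).mul (diffR_cj (diffR h i))]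
  refine Finset.sum_congr rfl fun i _ => ?_
  rw [dz_mul (diffR h i) (diffR_cj (diffR h i)), dz_cj (diffR h i),
    dzb_of_holo ((holo_apply h i).differentiableAt (by simp))]
  simp [dS, cj]

lemma dS_holo {f : Cm n → ℂ} (h : ContDiffAt ℂ ω f z) (k : Fin n) :
    ContDiffAt ℂ ω (fun y => dz k f y) z := by
  have h4 : ContDiffAt ℂ ω (fun y => fderiv ℂ f y (Pi.single k 1)) z :=
    (h.fderiv_right (m := ω) (by exact le_top)).clm_apply contDiffAt_const
  refine h4.congr_of_eventuallyEq ?_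
  filter_upwards [h.eventually (by simp)] with y hy
  exact dz_of_holo (hy.differentiableAt (by simp))

lemma dz_dzb_nv (h : ContDiffAt ℂ ω S z) (j k : Fin n) :
    dz j (dzb k (fun y => ((nv (S y) : ℝ) : ℂ))) z = hv (dS S z j) (dS S z k) := by
  have h1 : dzb k (fun y => ((nv (S y) : ℝ) : ℂ)) =ᶠ[𝓝 z]
      fun y => ∑ i, S y i * cj (dz k (fun x => S x i) y) := by
    filter_upwards [h.eventually (by simp)] with y hy
    rw [dzb_nv hy]
    rfl
  have h2 : ∀ i, DifferentiableAt ℝ (fun y => dz k (fun x => S x i) y) z := fun i =>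
    ((dS_holo (holo_apply h i) k).differentiableAt (by simp)).restrictScalars ℝ
  rw [dz_congr h1, dz_sum (F := fun i y => S y i * cj (dz k (fun x => S x i) y)) Finset.univ
    fun i _ => (diffR h i).mul (diffR_cj (h2 i))]
  refine Finset.sum_congr rfl fun i _ => ?_
  rw [dz_mul (diffR h i) (diffR_cj (h2 i)), dz_cj (h2 i),
    dzb_of_holo ((dS_holo (holo_apply h i) k).differentiableAt (by simp))]
  simp [dS, cj]

/-- the Fubini-Study metric in coordinates -/
lemma cHess_pot (h : ContDiffAt ℂ ω S z) (h0 : S z ≠ 0) (j k : Fin n) :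
    (nv (S z) : ℂ) ^ 2 * cHess (pot S) z j k =
      (nv (S z) : ℂ) * hv (dS S z j) (dS S z k) - hv (S z) (dS S z k) * hv (dS S z j) (S z) := by
  have hR : ContDiffAt ℝ 2 S z := (h.restrict_scalars ℝ).of_le (by exact le_top)
  have hp : ContDiffAt ℝ 2 (fun y => ((pot S y : ℝ) : ℂ)) z :=
    Complex.ofRealCLM.contDiff.contDiffAt.comp z (contDiffAt_pot hR h0)
  have hn : ContDiffAt ℝ 2 (fun y => ((nv (S y) : ℝ) : ℂ)) z :=
    Complex.ofRealCLM.contDiff.contDiffAt.comp z (contDiffAt_nv hR)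
  have h1 : (fun y => dzb k (fun y => ((pot S y : ℝ) : ℂ)) y * ((nv (S y) : ℝ) : ℂ)) =ᶠ[𝓝 z]
      dzb k (fun y => ((nv (S y) : ℝ) : ℂ)) := by
    filter_upwards [h.eventually (by simp), h.continuousAt.eventually_ne h0] with y hy hy0
    have hyR : ContDiffAt ℝ 2 S y := (hy.restrict_scalars ℝ).of_le (by exact le_top)
    exact dzb_log ((contDiffAt_nv hyR).differentiableAt (by norm_num)) (nv_pos hy0).ne' k
  have h2 := dz_congr (i := j) h1
  rw [dz_mul (differentiableAt_dzb hp) (hn.differentiableAt (by norm_num)), dz_dzb_nv h,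
    dz_nv h] at h2
  have h3 := h1.self_of_nhds
  simp only at h3
  rw [dzb_nv h] at h3
  have h4 : cHess (pot S) z j k = dz j (dzb k fun y => ((pot S y : ℝ) : ℂ)) z := rfl
  rw [h4, ← h3]
  linear_combination (nv (S z) : ℂ) * h2

lemma fderiv_eq_dS (h : ContDiffAt ℂ ω S z) (ξ : Cm n) :
    fderiv ℂ S z ξ = ∑ j, ξ j • dS S z j := by
  have hξ : ξ = ∑ j, ξ j • (Pi.single j (1 : ℂ) : Cm n) := by
    funext i
    simp [Finset.sum_apply, Pi.single_apply]
  conv_lhs => rw [hξ]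
  rw [map_sum]
  refine Finset.sum_congr rfl fun j _ => ?_
  rw [map_smul]
  congr 1
  funext i
  rw [dS, dz_of_holo ((holo_apply h i).differentiableAt (by simp)),
    fderiv_apply (h.differentiableAt (by simp)) i]
  rfl

/-- the quadratic form of the metric -/
lemma cHess_pot_quad (h : ContDiffAt ℂ ω S z) (h0 : S z ≠ 0) (x : Cm n) :
    star x ⬝ᵥ ((cHess (pot S) z).mulVec x) =
      ((nv (fderiv ℂ S z (star x) - (hv (fderiv ℂ S z (star x)) (S z) / (nv (S z) : ℂ)) • S z) /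
        nv (S z) : ℝ) : ℂ) := by
  have hn0 : (nv (S z) : ℂ) ≠ 0 := by exact_mod_cast (nv_pos h0).ne'
  set T := fderiv ℂ S z (star x) with hT
  have e0 : T = ∑ j, (star x) j • dS S z j := fderiv_eq_dS h _
  have e1 : hv T T = ∑ j, ∑ k, cj (x j) * x k * hv (dS S z j) (dS S z k) := by
    conv_lhs => rw [e0]
    rw [hv_sum_left]
    refine Finset.sum_congr rfl fun j _ => ?_
    rw [hv_sum_right, Finset.mul_sum]
    refine Finset.sum_congr rfl fun k _ => ?_
    simp only [Pi.star_apply, cj, Complex.star_def, Complex.conj_conj]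
    ring
  have e2 : hv T (S z) = ∑ j, cj (x j) * hv (dS S z j) (S z) := by
    conv_lhs => rw [e0]
    rw [hv_sum_left]
    rfl
  have e3 : hv (S z) T = ∑ k, x k * hv (S z) (dS S z k) := by
    conv_lhs => rw [e0]
    rw [hv_sum_right]
    refine Finset.sum_congr rfl fun k _ => ?_
    simp [cj]
  have e4 : (nv (S z) : ℂ) ^ 2 * (star x ⬝ᵥ ((cHess (pot S) z).mulVec x)) =
      (nv (S z) : ℂ) * hv T T - hv (S z) T * hv T (S z) := by
    rw [e1, e2, e3]
    simp only [dotProduct, Matrix.mulVec, Finset.mul_sum, Finset.sum_mul]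
    have e5 : ∑ j, ∑ k, x k * hv (S z) (dS S z k) * (cj (x j) * hv (dS S z j) (S z)) =
        ∑ k, ∑ j, x k * hv (S z) (dS S z k) * (cj (x j) * hv (dS S z j) (S z)) :=
      Finset.sum_comm
    rw [Finset.sum_comm (f := fun i i_1 => x i * hv (S z) (dS S z i) *
      (cj (x i_1) * hv (dS S z i_1) (S z)))] at *
    rw [← Finset.sum_sub_distrib]
    refine Finset.sum_congr rfl fun j _ => ?_
    rw [← Finset.sum_sub_distrib]
    refine Finset.sum_congr rfl fun k _ => ?_
    have := cHess_pot h h0 j k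
    simp only [Pi.star_apply, Complex.star_def, cj]
    linear_combination ((starRingEnd ℂ) (x j) * x k) * this
  rw [hv_square T (S z) h0] at e4
  have e6 : (nv (S z) : ℂ) * (star x ⬝ᵥ ((cHess (pot S) z).mulVec x)) =
      (nv (T - (hv T (S z) / (nv (S z) : ℂ)) • S z) : ℂ) := by
    apply mul_left_cancel₀ hn0
    rw [← e4]
    ring
  rw [Complex.ofReal_div, eq_div_iff hn0, ← e6]
  ring

/-- immersive modulo scaling -/
def Imm (S : Cm n → κ → ℂ) (z : Cm n) : Prop :=
  ∀ (ξ : Cm n) (c : ℂ), fderiv ℂ S z ξ = c • S z → ξ = 0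

lemma posDef_pot (h : ContDiffAt ℂ ω S z) (h0 : S z ≠ 0) (hi : Imm S z) :
    (cHess (pot S) z).PosDef := by
  have hR : ContDiffAt ℝ 2 S z := (h.restrict_scalars ℝ).of_le (by exact le_top)
  refine Matrix.PosDef.of_dotProduct_mulVec_pos (cHess_isHermitian (contDiffAt_pot hR h0)) ?_
  intro x hx
  rw [cHess_pot_quad h h0]
  refine Complex.zero_lt_real.mpr ?_
  refine div_pos (nv_pos ?_) (nv_pos h0)
  intro hz
  have h1 := hi (star x) _ (sub_eq_zero.mp hz)
  exact hx (by simpa using h1)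

/-- the potential changes by a pluriharmonic function under scaling -/
lemma cHess_pot_smul {κ' : Type} [Fintype κ'] {S' : Cm n → κ' → ℂ} {g : Cm n → ℂ}
    (h : ContDiffAt ℂ ω S z) (h0 : S z ≠ 0)
    (hg : ContDiffAt ℂ ω g z) (hg0 : g z ≠ 0) (hev : ∀ᶠ y in 𝓝 z, nv (S' y) = ‖g y‖ ^ 2 * nv (S y)) :
    cHess (pot S') z = cHess (pot S) z := by
  have hR : ContDiffAt ℝ 2 S z := (h.restrict_scalars ℝ).of_le (by exact le_top)
  have hgR : ContDiffAt ℝ 2 g z := (hg.restrict_scalars ℝ).of_le (by exact le_top)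
  have h1 : pot S' =ᶠ[𝓝 z] fun y => Real.log (‖g y‖ ^ 2) + pot S y := by
    filter_upwards [hev, h.continuousAt.eventually_ne h0, hg.continuousAt.eventually_ne hg0]
      with y hy hy0 hy1
    rw [pot, hy, Real.log_mul (pow_ne_zero 2 (norm_ne_zero_iff.mpr hy1)) (nv_pos hy0).ne']
    rfl
  have h2 : ContDiffAt ℝ 2 (fun y => Real.log (‖g y‖ ^ 2)) z :=
    (hgR.norm_sq ℝ).log (pow_ne_zero 2 (norm_ne_zero_iff.mpr hg0))
  rw [cHess_congr h1, cHess_add h2 (contDiffAt_pot hR h0), cHess_log_norm_sq hg hg0, zero_add]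

/-- closedness -/
lemma cHess_closed {f : Cm n → ℝ} (hf : ContDiffAt ℝ 3 f z) (i j k : Fin n) :
    dz k (fun y => cHess f y i j) z = dz i (fun y => cHess f y k j) z := by
  have h1 : ContDiffAt ℝ 2 (dzb j fun y => ((f y : ℝ) : ℂ)) z :=
    contDiffAt_dzb (r := 3) (Complex.ofRealCLM.contDiff.contDiffAt.comp z hf) (by norm_num)
  exact dz_dz_comm h1

lemma cHess_smooth {f : Cm n → ℝ} (hf : ContDiffAt ℝ ∞ f z) (i j : Fin n) :
    ContDiffAt ℝ ∞ (fun y => cHess f y i j) z := by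
  have h0 : ContDiffAt ℝ ∞ (fun y => ((f y : ℝ) : ℂ)) z :=
    Complex.ofRealCLM.contDiff.contDiffAt.comp z hf
  exact contDiffAt_dz (r := ∞) (contDiffAt_dzb (r := ∞) h0 (by exact le_rfl)) (by exact le_rfl)

end

end Vale.Agent.P298.H265
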