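import Vale.Agent.P298.H39.LPart

/-!
# P298, block S1-GEO: smooth lifts of the vector field of the base, invariant lifts
-/

open scoped ContDiff Topology Manifold
open Vale.Agent.P272.K Vale.Agent.P298.H39

noncomputable section

namespace Vale.Agent.P298.H265

variable {Z : Type} [TopologicalSpace Z] {F : Fam Z}

/-- the lift of the chart `c`, seen in the chart `e` -/
def lc (c e : PC Z) (z : Z) : Cm 2 := (tj c e z (0, 1)).1

lemma lc_eq {c e : PC Z} (hc : c ∈ F.A) (he : e ∈ F.A) {z : Z} (hz : z ∈ c.source)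
    (hz' : z ∈ e.source) : tj c e z (0, 1) = (lc c e z, 1) :=
  Prod.ext rfl (tj_snd hc he hz hz' _)

lemma lc_change {c e e' : PC Z} (hc : c ∈ F.A) (he : e ∈ F.A) (he' : e' ∈ F.A) {z : Z}
    (hz : z ∈ c.source) (hz1 : z ∈ e.source) (hz2 : z ∈ e'.source) :
    tj e e' z (lc c e z, 1) = (lc c e' z, 1) := by
  rw [← lc_eq hc he hz hz1, ← tj_comp hc he he' hz hz1 hz2, lc_eq hc he' hz hz2]

lemma lc_smooth {c e : PC Z} (hc : c ∈ F.A) (he : e ∈ F.A) {z : Z} (hz : z ∈ c.source)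
    (hz' : z ∈ e.source) :
    ContDiffAt ℝ ∞ (fun q => lc c e (c.symm q)) (c z) := by
  have h1 : ContDiffAt ℝ ω (fun q => e (c.symm q)) (c z) :=
    (F.trans c hc e he z hz hz').restrict_scalars ℝ
  have h2 : ContDiffAt ℝ ∞ (fderiv ℝ fun q => e (c.symm q)) (c z) :=
    h1.fderiv_right (m := ∞) (by exact le_top)
  have h3 : ContDiffAt ℝ ∞ (fun q => (fderiv ℝ (fun q => e (c.symm q)) q (0, 1)).1) (c z) :=
    (h2.clm_apply contDiffAt_const).fst
  refine h3.congr_of_eventuallyEq ?_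
  filter_upwards [nhds_overlap hz hz'] with q hq
  show (fderiv ℝ (fun q => e (c.symm q)) (c (c.symm q)) (0, 1)).1 = _
  rw [c.right_inv hq.1]

theorem exists_lift [T2Space Z] (F : Fam Z) : ∃ v, IsLift F v := by
  let _ := F.chartedSpace
  have := F.isManifold
  have := F.sigmaCompact
  obtain ⟨f, hf⟩ := SmoothPartitionOfUnity.exists_isSubordinate 𝓘(ℝ, Cm 2 × ℂ)
    (isClosed_univ (X := Z)) (fun x : Z => (chartAt (Cm 2 × ℂ) x).source)
    (fun x => (chartAt (Cm 2 × ℂ) x).open_source)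
    (fun x _ => Set.mem_iUnion.2 ⟨x, mem_chart_source _ x⟩)
  let c : Z → PC Z := fun x => chartAt (Cm 2 × ℂ) x
  have hc : ∀ i, c i ∈ F.A := fun i => chart_mem_atlas (Cm 2 × ℂ) i
  have hsup : ∀ i z, z ∈ tsupport (f i) → z ∈ (c i).source := fun i z hz => hf i hz
  have hfin : ∀ z, (Function.support fun i => f i z).Finite := fun z =>
    f.locallyFinite.point_finite z
  have hsum : ∀ z, ∑ᶠ i, f i z = 1 := fun z => f.sum_eq_one (Set.mem_univ z)
  have hfs : ∀ (z : Z) {W : Type} [AddCommGroup W] [Module ℝ W] (g : Z → W),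
      (Function.support fun i => f i z • g i).Finite := fun z W _ _ g =>
    (hfin z).subset fun i hi h0 => hi (by
      have h1 : f i z = 0 := h0
      show f i z • g i = 0
      rw [h1, zero_smul])
  -- the lift in the total space
  let V : PC Z → Z → Cm 2 := fun e z => ∑ᶠ i, f i z • lc (c i) e z
  have key : ∀ e ∈ F.A, ∀ z ∈ e.source, ((V e z, 1) : Cm 2 × ℂ) =
      ∑ᶠ i, f i z • ((lc (c i) e z, 1) : Cm 2 × ℂ) := by
    intro e _ z _
    have hs2 : (Function.support fun i => f i z • ((lc (c i) e z, 1) : Cm 2 × ℂ)).Finite :=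
      hfs z _
    refine Prod.ext ?_ ?_
    · have h1 := (AddMonoidHom.fst (Cm 2) ℂ).map_finsum hs2
      simp only [AddMonoidHom.coe_fst, Prod.smul_mk] at h1
      simp only [Prod.smul_mk]
      rw [h1]
    · have h1 := (AddMonoidHom.snd (Cm 2) ℂ).map_finsum hs2
      simp only [AddMonoidHom.coe_snd, Prod.smul_mk] at h1
      simp only [Prod.smul_mk]
      rw [h1]
      have h2 : ∑ᶠ i, f i z • (1 : ℂ) = ((∑ᶠ i, f i z : ℝ) : ℂ) := by
        have h3 := (Complex.ofRealHom.toAddMonoidHom).map_finsum (hfin z)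
        have h4 : ((∑ᶠ i, f i z : ℝ) : ℂ) = ∑ᶠ i, ((f i z : ℝ) : ℂ) := h3
        rw [h4]
        refine finsum_congr fun i => ?_
        rw [Complex.real_smul, mul_one]
      rw [h2, hsum]
      simp
  refine ⟨fun e q => V e (e.symm q), ?_, ?_⟩
  · intro e he q hq
    have hz : e.symm q ∈ e.source := e.map_target hq
    have h1 : ContMDiffAt 𝓘(ℝ, Cm 2 × ℂ) 𝓘(ℝ, Cm 2) ∞ (V e) (e.symm q) := by
      refine f.contMDiffAt_finsum fun i hi => ?_
      have hzi := hsup i _ hi
      have h2 : ContMDiffAt 𝓘(ℝ, Cm 2 × ℂ) 𝓘(ℝ, Cm 2 × ℂ) ∞ (c i) (e.symm q) :=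
        (contMDiffOn_of_mem_maximalAtlas (IsManifold.subset_maximalAtlas (hc i))).contMDiffAt
          ((c i).open_source.mem_nhds hzi)
      have h3 := (lc_smooth (hc i) he hzi hz).contMDiffAt
      have h4 := ContMDiffAt.comp (e.symm q) h3 h2
      refine h4.congr_of_eventuallyEq ?_
      filter_upwards [(c i).open_source.mem_nhds hzi] with z hz
      show lc (c i) e z = lc (c i) e ((c i).symm ((c i) z))
      rw [(c i).left_inv hz]
    have h2 : ContMDiffAt 𝓘(ℝ, Cm 2 × ℂ) 𝓘(ℝ, Cm 2 × ℂ) ∞ e.symm q :=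
      (contMDiffOn_symm_of_mem_maximalAtlas (IsManifold.subset_maximalAtlas he)).contMDiffAt
        (e.open_target.mem_nhds hq)
    rw [← contMDiffAt_iff_contDiffAt]
    exact ContMDiffAt.comp (g := V e) q h1 h2
  · intro e he e' he' z hz hz'
    show tj e e' z (V e (e.symm (e z)), 1) = (V e' (e'.symm (e' z)), 1)
    rw [e.left_inv hz, e'.left_inv hz', key e he z hz, key e' he' z hz']
    have hs2 : (Function.support fun i => f i z • ((lc (c i) e z, 1) : Cm 2 × ℂ)).Finite :=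
      hfs z _
    have h1 := ((tj e e' z : Cm 2 × ℂ →ₗ[ℝ] Cm 2 × ℂ).toAddMonoidHom).map_finsum hs2
    have h2 : tj e e' z (∑ᶠ i, f i z • ((lc (c i) e z, 1) : Cm 2 × ℂ)) =
        ∑ᶠ i, tj e e' z (f i z • ((lc (c i) e z, 1) : Cm 2 × ℂ)) := h1
    rw [h2]
    refine finsum_congr fun i => ?_
    rw [map_smul]
    by_cases hi : f i z = 0
    · rw [hi, zero_smul, zero_smul]
    · rw [lc_change (hc i) he he' (hsup i z (subset_tsupport _ hi)) hz hz']

/-! ### Invariant lifts -/

section inv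

variable (σ : Z ≃ₜ Z)

/-- the chart composed with the homeomorphism -/
abbrev Tc (e : PC Z) : PC Z := σ.transOpenPartialHomeomorph e

lemma Tc_apply (e : PC Z) (z : Z) : Tc σ e z = e (σ z) := rfl

lemma Tc_symm (e : PC Z) (q : Cm 2 × ℂ) : (Tc σ e).symm q = σ.symm (e.symm q) := rfl

lemma Tc_source (e : PC Z) (z : Z) : z ∈ (Tc σ e).source ↔ σ z ∈ e.source := Iff.rfl

lemma Tc_target (e : PC Z) : (Tc σ e).target = e.target := rfl

lemma tj_Tc (e e' : PC Z) (z : Z) : tj (Tc σ e) (Tc σ e') z = tj e e' (σ z) := by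
  unfold tj
  congr 1
  funext q
  show e' (σ (σ.symm (e.symm q))) = e' (e.symm q)
  rw [σ.apply_symm_apply]

lemma iter_apply (k : ℕ) (e : PC Z) (z : Z) : ((Tc σ)^[k] e) z = e (σ^[k] z) := by
  induction k generalizing e z with
  | zero => rfl
  | succ k ih =>
    rw [Function.iterate_succ_apply, ih, Tc_apply, Function.iterate_succ_apply']

lemma iter_symm (k : ℕ) (e : PC Z) (q : Cm 2 × ℂ) :
    ((Tc σ)^[k] e).symm q = σ.symm^[k] (e.symm q) := by
  induction k generalizing e with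
  | zero => rfl
  | succ k ih =>
    rw [Function.iterate_succ_apply, ih, Tc_symm, Function.iterate_succ_apply]

lemma iter_source (k : ℕ) (e : PC Z) (z : Z) :
    z ∈ ((Tc σ)^[k] e).source ↔ σ^[k] z ∈ e.source := by
  induction k generalizing e z with
  | zero => rfl
  | succ k ih =>
    rw [Function.iterate_succ_apply, ih, Tc_source, Function.iterate_succ_apply']

lemma iter_target (k : ℕ) (e : PC Z) : ((Tc σ)^[k] e).target = e.target := by
  induction k generalizing e with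
  | zero => rfl
  | succ k ih => rw [Function.iterate_succ_apply, ih, Tc_target]

lemma iter_eq {m : ℕ} (hm : ∀ z, σ^[m] z = z) (e : PC Z) : (Tc σ)^[m] e = e := by
  refine OpenPartialHomeomorph.ext _ _ (fun z => ?_) (fun q => ?_) ?_
  · rw [iter_apply, hm]
  · rw [iter_symm]
    have h1 : Function.LeftInverse (σ.symm)^[m] σ^[m] :=
      Function.LeftInverse.iterate (f := σ) (g := σ.symm) σ.symm_apply_apply m
    have h2 := h1 (e.symm q)
    rw [hm] at h2
    exact h2
  · ext z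
    rw [iter_source, hm]

variable {σ}

lemma isLift_Tc (hσ : ∀ e ∈ F.A, Tc σ e ∈ F.A) {v : PC Z → Cm 2 × ℂ → Cm 2}
    (hv : IsLift F v) : IsLift F (fun e => v (Tc σ e)) where
  smooth e he q hq := hv.smooth (Tc σ e) (hσ e he) q hq
  change e he e' he' z hz hz' := by
    have h1 := hv.change (Tc σ e) (hσ e he) (Tc σ e') (hσ e' he') (σ.symm z)
      (by rw [Tc_source, σ.apply_symm_apply]; exact hz)
      (by rw [Tc_source, σ.apply_symm_apply]; exact hz')
    rw [tj_Tc, Tc_apply, Tc_apply, σ.apply_symm_apply] at h1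
    exact h1

lemma isLift_iter (hσ : ∀ e ∈ F.A, Tc σ e ∈ F.A) {v : PC Z → Cm 2 × ℂ → Cm 2}
    (hv : IsLift F v) (k : ℕ) : IsLift F (fun e => v ((Tc σ)^[k] e)) := by
  induction k with
  | zero => exact hv
  | succ k ih =>
    have h1 := isLift_Tc hσ ih
    have h2 : (fun e => v ((Tc σ)^[k + 1] e)) = fun e => v ((Tc σ)^[k] (Tc σ e)) := by
      funext e
      rw [Function.iterate_succ_apply]
    rw [h2]
    exact h1

/-- affine combinations of lifts -/
lemma isLift_avg {m : ℕ} (hm : 0 < m) {v : ℕ → PC Z → Cm 2 × ℂ → Cm 2}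
    (hv : ∀ k, IsLift F (v k)) :
    IsLift F (fun e q => (m : ℝ)⁻¹ • ∑ k ∈ Finset.range m, v k e q) where
  smooth e he q hq := by
    refine ContDiffAt.const_smul _ ?_
    exact ContDiffAt.sum fun k _ => (hv k).smooth e he q hq
  change e he e' he' z hz hz' := by
    have hm' : (m : ℝ) ≠ 0 := by exact_mod_cast hm.ne'
    have h1 : ∀ e : PC Z, (((m : ℝ)⁻¹ • ∑ k ∈ Finset.range m, v k e (e z), 1) : Cm 2 × ℂ) =
        (m : ℝ)⁻¹ • ∑ k ∈ Finset.range m, ((v k e (e z), 1) : Cm 2 × ℂ) := by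
      intro e
      refine Prod.ext ?_ ?_
      · rw [Prod.smul_fst, Prod.fst_sum]
      · rw [Prod.smul_snd, Prod.snd_sum]
        simp only [Finset.sum_const, Finset.card_range, Complex.real_smul, nsmul_eq_mul, mul_one]
        push_cast
        rw [inv_mul_cancel₀ (by exact_mod_cast hm.ne')]
    show tj e e' z ((m : ℝ)⁻¹ • ∑ k ∈ Finset.range m, v k e (e z), 1) = _
    rw [h1 e, map_smul, map_sum]
    show _ = (((m : ℝ)⁻¹ • ∑ k ∈ Finset.range m, v k e' (e' z), 1) : Cm 2 × ℂ)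
    rw [h1 e']
    congr 1
    exact Finset.sum_congr rfl fun k _ => (hv k).change e he e' he' z hz hz'

/-- invariant lifts exist -/
theorem exists_inv_lift [T2Space Z] (F : Fam Z) (σ : Z ≃ₜ Z)
    (hσ : ∀ e ∈ F.A, σ.transOpenPartialHomeomorph e ∈ F.A) {m : ℕ} (hm : 0 < m)
    (hid : ∀ z, σ^[m] z = z) :
    ∃ v, IsLift F v ∧ ∀ e q, v (σ.transOpenPartialHomeomorph e) q = v e q := by
  obtain ⟨v, hv⟩ := exists_lift F
  refine ⟨fun e q => (m : ℝ)⁻¹ • ∑ k ∈ Finset.range m, v ((Tc σ)^[k] e) q,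
    isLift_avg hm (fun k => isLift_iter hσ hv k), ?_⟩
  intro e q
  show (m : ℝ)⁻¹ • ∑ k ∈ Finset.range m, v ((Tc σ)^[k] (Tc σ e)) q =
    (m : ℝ)⁻¹ • ∑ k ∈ Finset.range m, v ((Tc σ)^[k] e) q
  congr 1
  have h1 : ∀ k, v ((Tc σ)^[k] (Tc σ e)) q = v ((Tc σ)^[k + 1] e) q := fun k => by
    rw [Function.iterate_succ_apply]
  simp only [h1]
  have h2 := Finset.sum_range_succ' (fun k => v ((Tc σ)^[k] e) q) m
  rw [Finset.sum_range_succ, iter_eq σ hid] at h2
  simp only [Function.iterate_zero, id_eq] at h2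
  exact (add_right_cancel h2).symm

end inv

end Vale.Agent.P298.H265
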