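import Vale.Agent.P298.H265.FSLoc

/-!
# P298, row R0-K: the Fubini-Study metric of a complex manifold with local homogeneous coordinates
-/

open scoped Manifold ContDiff ComplexOrder Topology
open Vale.Agent.P272.K

noncomputable section

namespace Vale.Agent.P298.H265

variable {n : ℕ} {X : Type} [TopologicalSpace X] [ChartedSpace (Cm n) X]
  {ι κ : Type} [Fintype κ]

/-- local homogeneous coordinates: on `U a` the holomorphic map `s a` to `ℂ^κ`, unique up to a
holomorphic factor, nowhere zero and immersive modulo scaling -/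
structure FSData (n : ℕ) (X : Type) [TopologicalSpace X] [ChartedSpace (Cm n) X]
    (ι κ : Type) [Fintype κ] where
  /-- domains -/
  U : ι → Set X
  isOpen : ∀ a, IsOpen (U a)
  cover : ∀ x, ∃ a, x ∈ U a
  /-- homogeneous coordinates -/
  s : ι → X → κ → ℂ
  /-- factors -/
  g : ι → ι → X → ℂ
  holo : ∀ a (e : Chart n X) x, At e x → x ∈ U a →
    ContDiffAt ℂ ω (fun z => s a (e.symm z)) (e x)
  ne : ∀ a, ∀ x ∈ U a, s a x ≠ 0
  gholo : ∀ a b (e : Chart n X) x, At e x → x ∈ U a → x ∈ U b →
    ContDiffAt ℂ ω (fun z => g a b (e.symm z)) (e x)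
  change : ∀ a b, ∀ x ∈ U a, x ∈ U b → s b x = g a b x • s a x
  imm : ∀ a (e : Chart n X) x, At e x → x ∈ U a → Imm (fun z => s a (e.symm z)) (e x)

namespace FSData

variable (D : FSData n X ι κ)

/-- a chosen index -/
def ch (x : X) : ι := (D.cover x).choose

lemma ch_mem (x : X) : x ∈ D.U (D.ch x) := (D.cover x).choose_spec

/-- the coordinates in a chart -/
def sc (a : ι) (e : Chart n X) (z : Cm n) : κ → ℂ := D.s a (e.symm z)

/-- the metric -/
def met (e : Chart n X) (z : Cm n) : Matrix (Fin n) (Fin n) ℂ :=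
  cHess (pot (D.sc (D.ch (e.symm z)) e)) z

variable {D} {e e' : Chart n X} {x : X} {a b : ι}

lemma g_ne (ha : x ∈ D.U a) (hb : x ∈ D.U b) : D.g a b x ≠ 0 := by
  intro h
  have := D.change a b x ha hb
  rw [h, zero_smul] at this
  exact D.ne b x hb this

lemma sc_apply (h : At e x) : D.sc a e (e x) = D.s a x := by rw [sc, h.left_inv]

lemma sc_ne (h : At e x) (ha : x ∈ D.U a) : D.sc a e (e x) ≠ 0 := by
  rw [sc_apply h]; exact D.ne a x ha

lemma cHess_indep (h : At e x) (ha : x ∈ D.U a) (hb : x ∈ D.U b) :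
    cHess (pot (D.sc b e)) (e x) = cHess (pot (D.sc a e)) (e x) := by
  refine cHess_pot_smul (g := fun z => D.g a b (e.symm z)) (D.holo a e x h ha) (sc_ne h ha)
    (D.gholo a b e x h ha hb) (by rw [h.left_inv]; exact g_ne ha hb) ?_
  have h1 : ∀ᶠ z in 𝓝 (e x), e.symm z ∈ D.U a ∩ D.U b := by
    refine (e.continuousAt_symm h.mem_target).eventually
      (((D.isOpen a).inter (D.isOpen b)).mem_nhds ?_)
    rw [h.left_inv]
    exact ⟨ha, hb⟩
  filter_upwards [h1] with z hz
  rw [sc, D.change a b _ hz.1 hz.2, nv_smul]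
  rfl

lemma met_eq (h : At e x) (ha : x ∈ D.U a) : D.met e (e x) = cHess (pot (D.sc a e)) (e x) := by
  rw [met, h.left_inv]
  exact cHess_indep h ha (D.ch_mem x)

lemma met_ev (h : At e x) (ha : x ∈ D.U a) :
    ∀ᶠ z in 𝓝 (e x), D.met e z = cHess (pot (D.sc a e)) z := by
  have h1 : ∀ᶠ z in 𝓝 (e x), e.symm z ∈ D.U a := by
    refine (e.continuousAt_symm h.mem_target).eventually ((D.isOpen a).mem_nhds ?_)
    rw [h.left_inv]
    exact ha
  filter_upwards [h1, h.nhds_target] with z hz hz2
  have := met_eq (D := D) (At.of_target h.1 hz2) hz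
  rwa [e.right_inv hz2] at this

lemma pot_smooth (h : At e x) (ha : x ∈ D.U a) {r : WithTop ℕ∞} :
    ContDiffAt ℝ r (pot (D.sc a e)) (e x) :=
  (contDiffAt_pot ((D.holo a e x h ha).restrict_scalars ℝ) (sc_ne h ha)).of_le (by exact le_top)

/-- the pull-back of the metric by a map compatible with the homogeneous coordinates -/
theorem met_pull {Y : Type} [TopologicalSpace Y] [ChartedSpace (Cm n) Y]
    {ι' κ' : Type} [Fintype κ'] (D' : FSData n Y ι' κ') (φ : X → Y) (hφ : ContinuousAt φ x)
    {f : Chart n Y} (h : At e x) (h' : At f (φ x))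
    (hol : ContDiffAt ℂ ω (fun z => f (φ (e.symm z))) (e x))
    {b : ι'} (ha : x ∈ D.U a) (hb : φ x ∈ D'.U b) (c : X → ℂ)
    (hc : ContDiffAt ℂ ω (fun z => c (e.symm z)) (e x)) (hc0 : c x ≠ 0)
    (hn : ∀ᶠ y in 𝓝 x, nv (D'.s b (φ y)) = ‖c y‖ ^ 2 * nv (D.s a y)) :
    D.met e (e x) = (jmat (fun z => f (φ (e.symm z))) (e x)).transpose * D'.met f (f (φ x)) *
      (jmat (fun z => f (φ (e.symm z))) (e x)).map (starRingEnd ℂ) := by
  have h2 : f (φ (e.symm (e x))) = f (φ x) := by rw [h.left_inv]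
  rw [met_eq h ha, met_eq h' hb]
  have h3 := cHess_comp (τ := fun z => f (φ (e.symm z))) (f := pot (D'.sc b f)) (z := e x)
    (by rw [h2]; exact pot_smooth h' hb) hol
  simp only [h2] at h3
  rw [← h3]
  symm
  have hcx : ContinuousAt (fun z => e.symm z) (e x) := e.continuousAt_symm h.mem_target
  have key := cHess_pot_smul (S := D.sc a e) (S' := fun z => D'.sc b f (f (φ (e.symm z))))
    (g := fun z => c (e.symm z)) (D.holo a e x h ha) (sc_ne h ha) hc
    (by rw [h.left_inv]; exact hc0) ?_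
  · exact key
  · have h4 : ∀ᶠ z in 𝓝 (e x), nv (D'.s b (φ (e.symm z))) =
        ‖c (e.symm z)‖ ^ 2 * nv (D.s a (e.symm z)) := by
      have h5 : ∀ᶠ y in 𝓝 (e.symm (e x)), nv (D'.s b (φ y)) = ‖c y‖ ^ 2 * nv (D.s a y) := by
        rw [h.left_inv]; exact hn
      exact hcx.eventually h5
    have h6 : ∀ᶠ z in 𝓝 (e x), φ (e.symm z) ∈ f.source := by
      have h7 : ContinuousAt (fun z => φ (e.symm z)) (e x) := by
        refine ContinuousAt.comp (g := φ) ?_ hcx
        rw [h.left_inv]; exact hφ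
      refine h7.eventually (f.open_source.mem_nhds ?_)
      show φ (e.symm (e x)) ∈ f.source
      rw [h.left_inv]
      exact h'.2
    filter_upwards [h4, h6] with z hz hz2
    rw [sc, f.left_inv hz2, hz]
    rfl

variable [IsManifold 𝓘(ℂ, Cm n) ω X]

/-- the Fubini-Study metric is Kähler -/
theorem isKahler (D : FSData n X ι κ) : IsKahler D.met where
  smooth e x h i j := by
    have ha := D.ch_mem x
    refine (cHess_smooth (pot_smooth (D := D) h ha) i j).congr_of_eventuallyEq ?_
    filter_upwards [met_ev h ha] with z hz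
    rw [hz]
  posDef e x h := by
    rw [met_eq h (D.ch_mem x)]
    exact posDef_pot (D.holo _ e x h (D.ch_mem x)) (sc_ne h (D.ch_mem x))
      (D.imm _ e x h (D.ch_mem x))
  change e e' x h h' := by
    have ha := D.ch_mem x
    rw [met_eq h ha, met_eq h' ha]
    have h2 : e' (e.symm (e x)) = e' x := by rw [h.left_inv]
    have h3 := cHess_comp (τ := fun z => e' (e.symm z)) (f := pot (D.sc (D.ch x) e')) (z := e x)
      (by rw [h2]; exact pot_smooth h' ha) (transition h h')
    rw [h2] at h3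
    rw [jacM_eq, ← h3]
    refine cHess_congr ?_
    filter_upwards [h.nhds_at h'] with z hz
    rw [pot, pot, sc, sc, e'.left_inv hz.2.2.2]
  closed e x h i j k := by
    have ha := D.ch_mem x
    have h1 : ∀ i j, (fun z => D.met e z i j) =ᶠ[𝓝 (e x)]
        fun z => cHess (pot (D.sc (D.ch x) e)) z i j := by
      intro i j
      filter_upwards [met_ev h ha] with z hz
      rw [hz]
    rw [dz_congr (h1 i j), dz_congr (h1 k j)]
    exact cHess_closed (pot_smooth h ha) i j k

end FSData

end Vale.Agent.P298.H265
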