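import Vale.Agent.P298.H265.FS
import Vale.Agent.P298.H39.Jac

/-!
# P298, row R0-K: the Fubini-Study metric on the fibres of an analytic family
-/

open scoped Manifold ContDiff ComplexOrder Topology
open Vale.Agent.P272.K Vale.Agent.P298.H39

noncomputable section

namespace Vale.Agent.P298.H265

variable {Z : Type} [TopologicalSpace Z] {F : Fam Z} {ι κ : Type} [Fintype κ]

/-- local homogeneous coordinates on the total space of a family, immersive (modulo scaling)
along the fibres; the conditions are only required in one product chart at every point -/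
structure FamFS (F : Fam Z) (ι κ : Type) [Fintype κ] where
  /-- domains -/
  U : ι → Set Z
  isOpen : ∀ a, IsOpen (U a)
  cover : ∀ z, ∃ a, z ∈ U a
  /-- homogeneous coordinates -/
  s : ι → Z → κ → ℂ
  /-- factors -/
  g : ι → ι → Z → ℂ
  ne : ∀ a, ∀ z ∈ U a, s a z ≠ 0
  change : ∀ a b, ∀ z ∈ U a, z ∈ U b → s b z = g a b z • s a z
  gholo : ∀ a b, ∀ z ∈ U a, z ∈ U b →
    ∃ e ∈ F.A, z ∈ e.source ∧ ContDiffAt ℂ ω (fun q => g a b (e.symm q)) (e z)
  holo : ∀ a, ∀ z ∈ U a, ∃ e ∈ F.A, z ∈ e.source ∧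
    ContDiffAt ℂ ω (fun q => s a (e.symm q)) (e z) ∧
    ∀ (ξ : Cm 2) (c : ℂ), fderiv ℂ (fun q => s a (e.symm q)) (e z) (ξ, 0) = c • s a z → ξ = 0

section
variable {e e' : PC Z} {z : Z} {V : Type} [NormedAddCommGroup V] [NormedSpace ℂ V]

/-- holomorphy does not depend on the product chart -/
lemma hol_trans {f : Z → V} (he : e ∈ F.A) (he' : e' ∈ F.A) (hz : z ∈ e.source)
    (hz' : z ∈ e'.source) (hf : ContDiffAt ℂ ω (fun q => f (e.symm q)) (e z)) :
    ContDiffAt ℂ ω (fun q => f (e'.symm q)) (e' z) := by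
  have h1 : (fun q => f (e'.symm q)) =ᶠ[𝓝 (e' z)] fun q => f (e.symm (e (e'.symm q))) := by
    filter_upwards [nhds_overlap hz' hz] with q hq
    rw [e.left_inv hq.2]
  refine ContDiffAt.congr_of_eventuallyEq ?_ h1
  refine ContDiffAt.comp (g := fun q => f (e.symm q)) (e' z) ?_ (F.trans e' he' e he z hz' hz)
  rw [e'.left_inv hz']
  exact hf

lemma trC (hz : z ∈ e.source) (hz' : z ∈ e'.source) (he : e ∈ F.A) (he' : e' ∈ F.A) (u : Cm 2) :
    fderiv ℂ (fun q => e' (e.symm q)) (e z) (u, 0) = (fj e e' z u, 0) := by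
  have h1 := tj_inl he he' hz hz' u
  rw [tj_eq he he' hz hz'] at h1
  exact h1

/-- derivatives along the fibre in two product charts -/
lemma fderiv_trans {f : Z → V} (he : e ∈ F.A) (he' : e' ∈ F.A) (hz : z ∈ e.source)
    (hz' : z ∈ e'.source) (hf : ContDiffAt ℂ ω (fun q => f (e.symm q)) (e z)) (ξ : Cm 2) :
    fderiv ℂ (fun q => f (e'.symm q)) (e' z) (ξ, 0) =
      fderiv ℂ (fun q => f (e.symm q)) (e z) (fj e' e z ξ, 0) := by
  have h1 : (fun q => f (e'.symm q)) =ᶠ[𝓝 (e' z)] fun q => f (e.symm (e (e'.symm q))) := by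
    filter_upwards [nhds_overlap hz' hz] with q hq
    rw [e.left_inv hq.2]
  have h2 : e (e'.symm (e' z)) = e z := by rw [e'.left_inv hz']
  have h3 : HasFDerivAt (fun q => f (e.symm q)) (fderiv ℂ (fun q => f (e.symm q)) (e z))
      (e (e'.symm (e' z))) := by
    rw [h2]
    exact (hf.differentiableAt (by simp)).hasFDerivAt
  have h4 := h3.comp (e' z) (tr_diff he' he hz' hz).hasFDerivAt
  have h5 := (h4.congr_of_eventuallyEq h1).fderiv
  rw [h5, ContinuousLinearMap.comp_apply, trC hz' hz he' he]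

lemma fj_eq_zero (he : e ∈ F.A) (he' : e' ∈ F.A) (hz : z ∈ e.source) (hz' : z ∈ e'.source)
    {u : Cm 2} (h : fj e e' z u = 0) : u = 0 := by
  have h1 := fj_comp he he' he hz hz' hz u
  rw [fj_self hz, h] at h1
  rw [h1]
  show (tj e' e z (0, 0)).1 = 0
  rw [show ((0 : Cm 2), (0 : ℂ)) = 0 from rfl, map_zero]
  rfl

end

namespace FamFS

variable (D : FamFS F ι κ)

lemma holo' {a : ι} {z : Z} (ha : z ∈ D.U a) {e : PC Z} (he : e ∈ F.A) (hz : z ∈ e.source) :
    ContDiffAt ℂ ω (fun q => D.s a (e.symm q)) (e z) := by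
  obtain ⟨c, hc, hzc, h1, -⟩ := D.holo a z ha
  exact hol_trans hc he hzc hz h1

lemma gholo' {a b : ι} {z : Z} (ha : z ∈ D.U a) (hb : z ∈ D.U b) {e : PC Z} (he : e ∈ F.A)
    (hz : z ∈ e.source) : ContDiffAt ℂ ω (fun q => D.g a b (e.symm q)) (e z) := by
  obtain ⟨c, hc, hzc, h1⟩ := D.gholo a b z ha hb
  exact hol_trans hc he hzc hz h1

lemma imm' {a : ι} {z : Z} (ha : z ∈ D.U a) {e : PC Z} (he : e ∈ F.A) (hz : z ∈ e.source)
    (ξ : Cm 2) (c : ℂ) (h : fderiv ℂ (fun q => D.s a (e.symm q)) (e z) (ξ, 0) = c • D.s a z) :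
    ξ = 0 := by
  obtain ⟨e₀, hc, hzc, h1, h2⟩ := D.holo a z ha
  rw [fderiv_trans hc he hzc hz h1] at h
  exact fj_eq_zero he hc hz hzc (h2 _ c h)

lemma fib_ev {t : ℂ} {f : Chart 2 (F.Fib t)} {e : PC Z} (h : IsFC F t f e) {x : F.Fib t}
    (hx : x ∈ f.source) : ∀ᶠ w in 𝓝 (f x), (f.symm w).1 = e.symm (w, t) := by
  filter_upwards [f.open_target.mem_nhds (f.map_source hx)] with w hw
  exact h.symm_val hw

/-- restriction to a fibre -/
def toFS (t : ℂ) : FSData 2 (F.Fib t) ι κ where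
  U a := {x | x.1 ∈ D.U a}
  isOpen a := (D.isOpen a).preimage continuous_fib
  cover x := D.cover x.1
  s a x := D.s a x.1
  g a b x := D.g a b x.1
  ne a x hx := D.ne a x.1 hx
  change a b x hx hx' := D.change a b x.1 hx hx'
  gholo a b f x hf ha hb := by
    obtain ⟨e, he⟩ := hf.1
    have h1 := D.gholo' ha hb he.mem ((he.src x).mp hf.2)
    rw [he.apply hf.2] at h1
    have h2 : ContDiffAt ℂ ω (fun w : Cm 2 => (w, t)) (f x) :=
      contDiffAt_id.prodMk contDiffAt_const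
    have h3 := ContDiffAt.comp (g := fun q => D.g a b (e.symm q)) (f x) h1 h2
    refine h3.congr_of_eventuallyEq ?_
    filter_upwards [fib_ev he hf.2] with w hw
    show D.g a b (f.symm w).1 = _
    rw [hw]
    rfl
  holo a f x hf ha := by
    obtain ⟨e, he⟩ := hf.1
    have h1 := D.holo' ha he.mem ((he.src x).mp hf.2)
    rw [he.apply hf.2] at h1
    have h2 : ContDiffAt ℂ ω (fun w : Cm 2 => (w, t)) (f x) :=
      contDiffAt_id.prodMk contDiffAt_const
    have h3 := ContDiffAt.comp (g := fun q => D.s a (e.symm q)) (f x) h1 h2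
    refine h3.congr_of_eventuallyEq ?_
    filter_upwards [fib_ev he hf.2] with w hw
    show D.s a (f.symm w).1 = _
    rw [hw]
    rfl
  imm a f x hf ha := by
    obtain ⟨e, he⟩ := hf.1
    have h1 := D.holo' ha he.mem ((he.src x).mp hf.2)
    have h4 := D.imm' ha he.mem ((he.src x).mp hf.2)
    intro ξ c hc
    refine h4 ξ c ?_
    rw [he.apply hf.2] at h1 ⊢
    have h2 : HasFDerivAt (fun w : Cm 2 => (w, t)) (ContinuousLinearMap.inl ℂ (Cm 2) ℂ) (f x) := by
      have := (hasFDerivAt_id (𝕜 := ℂ) (f x)).prodMk (hasFDerivAt_const t (f x))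
      exact this
    have h3 := (h1.differentiableAt (by simp)).hasFDerivAt.comp (f x) h2
    have h5 : (fun w => D.s a (f.symm w).1) =ᶠ[𝓝 (f x)] fun w => D.s a (e.symm (w, t)) := by
      filter_upwards [fib_ev he hf.2] with w hw
      rw [hw]
    have h6 := (h3.congr_of_eventuallyEq h5).fderiv
    have h7 : D.s a (f.symm (f x)).1 = D.s a x.1 := by rw [f.left_inv hf.2]
    have h8 : fderiv ℂ (fun w => D.s a (f.symm w).1) (f x) ξ = c • D.s a x.1 := by
      rw [← h7]; exact hc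
    rw [h6] at h8
    exact h8

/-- the Fubini-Study metric of the fibre over `t` -/
def fmet (t : ℂ) : Chart 2 (F.Fib t) → Cm 2 → Matrix (Fin 2) (Fin 2) ℂ := (D.toFS t).met

/-- the Fubini-Study metric of the fibres is Kähler -/
theorem isKahler_fmet (t : ℂ) : IsKahler (D.fmet t) := (D.toFS t).isKahler

/-- a fibre preserving holomorphic map which multiplies the norm of the homogeneous coordinates by
the absolute value of a holomorphic function preserves the metric of the fibres -/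
theorem fmet_pull {Z' : Type} [TopologicalSpace Z'] {F' : Fam Z'} {ι' κ' : Type} [Fintype κ']
    (D' : FamFS F' ι' κ') (φ : Z → Z') (hφ : Continuous φ) (hp : ∀ z, F'.p (φ z) = F.p z)
    (hol : ∀ e ∈ F.A, ∀ e' ∈ F'.A, ∀ z ∈ e.source, φ z ∈ e'.source →
      ContDiffAt ℂ ω (fun q => e' (φ (e.symm q))) (e z))
    (hn : ∀ z, ∃ a b, z ∈ D.U a ∧ φ z ∈ D'.U b ∧ ∃ c : Z → ℂ, c z ≠ 0 ∧
      (∃ e ∈ F.A, z ∈ e.source ∧ ContDiffAt ℂ ω (fun q => c (e.symm q)) (e z)) ∧
      ∀ᶠ y in 𝓝 z, nv (D'.s b (φ y)) = ‖c y‖ ^ 2 * nv (D.s a y))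
    {t : ℂ} (x : F.Fib t) {f : Chart 2 (F.Fib t)} {f' : Chart 2 (F'.Fib t)} (hf : At f x)
    (hf' : At f' (⟨φ x.1, (hp x.1).trans x.2⟩ : F'.Fib t)) :
    D.fmet t f (f x) =
      (jmat (fun w => f' (⟨φ (f.symm w).1, (hp _).trans (f.symm w).2⟩ : F'.Fib t))
        (f x)).transpose * D'.fmet t f' (f' ⟨φ x.1, (hp x.1).trans x.2⟩) *
      (jmat (fun w => f' (⟨φ (f.symm w).1, (hp _).trans (f.symm w).2⟩ : F'.Fib t))
        (f x)).map (starRingEnd ℂ) := by
  obtain ⟨a, b, ha, hb, c, hc0, ⟨e₁, he₁, hz₁, hc⟩, hn⟩ := hn x.1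
  obtain ⟨e, he⟩ := hf.1
  obtain ⟨e', he'⟩ := hf'.1
  have hx := (he.src x).mp hf.2
  have hx' := (he'.src _).mp hf'.2
  let Φ : F.Fib t → F'.Fib t := fun y => ⟨φ y.1, (hp y.1).trans y.2⟩
  have hΦ : Continuous Φ := by
    rw [(isEmbedding_fib (F := F') (t := t)).isInducing.continuous_iff]
    exact hφ.comp continuous_fib
  have h2 : ContDiffAt ℂ ω (fun w : Cm 2 => (w, t)) (f x) :=
    contDiffAt_id.prodMk contDiffAt_const
  refine FSData.met_pull (D := D.toFS t) (D' := D'.toFS t) Φ hΦ.continuousAt hf hf' ?_ ha hb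
    (fun y => c y.1) ?_ hc0 (continuous_fib.continuousAt.eventually hn)
  · have h1 := hol e he.mem e' he'.mem x.1 hx hx'
    rw [he.apply hf.2] at h1
    have h3 := contDiffAt_fst.comp (f x)
      (ContDiffAt.comp (g := fun q => e' (φ (e.symm q))) (f x) h1 h2)
    refine h3.congr_of_eventuallyEq ?_
    have h4 : ∀ᶠ w in 𝓝 (f x), Φ (f.symm w) ∈ f'.source := by
      have h5 : ContinuousAt (fun w => Φ (f.symm w)) (f x) :=
        hΦ.continuousAt.comp (f.continuousAt_symm (f.map_source hf.2))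
      refine h5.eventually (f'.open_source.mem_nhds ?_)
      show Φ (f.symm (f x)) ∈ f'.source
      rw [f.left_inv hf.2]
      exact hf'.2
    filter_upwards [fib_ev he hf.2, h4] with w hw hw4
    show f' (Φ (f.symm w)) = (e' (φ (e.symm (w, t)))).1
    rw [he'.eq _ hw4, ← hw]
  · have h1 := hol_trans he₁ he.mem hz₁ hx hc
    rw [he.apply hf.2] at h1
    have h3 := ContDiffAt.comp (g := fun q => c (e.symm q)) (f x) h1 h2
    refine h3.congr_of_eventuallyEq ?_
    filter_upwards [fib_ev he hf.2] with w hw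
    show c (f.symm w).1 = _
    rw [hw]
    rfl

end FamFS

end Vale.Agent.P298.H265
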