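import Vale.Agent.P298.H265.FSFam
import Vale.Agent.P298.H863.C3

/-!
# P298, row R0-K: the Fubini-Study metric on families of complete intersections
-/

open scoped Manifold ContDiff ComplexOrder Topology
open Vale.Agent.P272.K Vale.Agent.P298.H39 Vale.Agent.P298.H863

noncomputable section

namespace Vale.Agent.P298.H265

variable {n K : ℕ} {Ω : Set ℂ} {G : ℂ × VN n → (Fin K → ℂ)} {dg : Fin K → ℕ}

/-- division by the `a`-th homogeneous coordinate -/
def dv (a : Fin n) (x : VN n) : VN n := (x a)⁻¹ • x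

lemma dv_analyticAt {a : Fin n} {x : VN n} (hx : x a ≠ 0) : AnalyticAt ℂ (dv a) x := by
  have h1 : AnalyticAt ℂ (fun x : VN n => x a) x :=
    (ContinuousLinearMap.proj (R := ℂ) (φ := fun _ : Fin n => ℂ) a).analyticAt x
  exact (h1.inv hx).fun_smul analyticAt_id

lemma anZ_sg {a : Fin n} {z : TZ Ω G} (hz : z ∈ Ua Ω G a) :
    AnZ (fun z : TZ Ω G => (sg a z).2) z := by
  have hne : (sg a z).2 a ≠ 0 := by rw [sg_self hz]; exact one_ne_zero
  refine AnZ.of_rep (rep_sg hz) (E := fun y => dv a y.2) ?_ ?_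
  · exact AnalyticAt.comp (g := dv a) (f := fun y : ℂ × VN n => y.2) (dv_analyticAt hne)
      analyticAt_snd
  · have h2 : ContinuousAt (fun y : ℂ × VN n => y.2 a) (sg a z) :=
      ((continuous_apply a).comp continuous_snd).continuousAt
    filter_upwards [h2.eventually_ne hne] with y hy z' hz'
    rw [hz'.sg_eq hy]
    rfl

/-- homogeneous coordinates of a family of complete intersections -/
def cifFS (h : CIF Ω G dg) (hn : n = K + 3) : FamFS (fam h hn) (Fin n) (Fin n) where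
  U := Ua Ω G
  isOpen := isOpen_Ua
  cover := exists_mem_Ua
  s a z := (sg a z).2
  g a b z := (sg b z).2 a
  ne a z hz := (rep_sg hz).1
  change a b z ha hb := by
    have hr := rep_sg ha
    rw [hr.sg_eq (hr.mem_Ua.mp hb)]
    simp only [Pi.smul_apply, smul_eq_mul]
    rw [sg_self ha, mul_one]
  gholo a b z ha hb := by
    obtain ⟨e, he, hz⟩ := exists_pc h hn z
    refine ⟨e, he, hz, ?_⟩
    have h1 : AnZ (fun z : TZ Ω G => (sg b z).2 a) (e.symm (e z)) := by
      rw [e.left_inv hz]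
      exact (anZ_sg hb).comp (T := fun x : VN n => x a)
        ((ContinuousLinearMap.proj (R := ℂ) (φ := fun _ : Fin n => ℂ) a).analyticAt _)
    exact (AnZ.comp_lift (he.lift _ (e.map_source hz)) h1).contDiffAt
  holo a z ha := by
    obtain ⟨μ, hμ⟩ := exists_mu h hn ((rep_sg ha).mem_cone h)
      (by rw [sg_self ha]; exact one_ne_zero)
    obtain ⟨e, he, hz, he2⟩ := exists_pc_of h hn z ha μ hμ
    have h1 : AnZ (fun z : TZ Ω G => (sg a z).2) (e.symm (e z)) := by
      rw [e.left_inv hz]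
      exact anZ_sg ha
    have h2 := AnZ.comp_lift (he.lift _ (e.map_source hz)) h1
    refine ⟨e, he, hz, h2.contDiffAt, ?_⟩
    intro ξ c hc
    have h3 := h2.differentiableAt.hasFDerivAt
    have hev : ∀ᶠ q in 𝓝 (e z), q ∈ e.target := e.open_target.mem_nhds (e.map_source hz)
    have h4 : HasFDerivAt (fun q : Cm 2 × ℂ => q.1)
        (μ.comp (fderiv ℂ (fun q => (sg a (e.symm q)).2) (e z))) (e z) := by
      refine (μ.hasFDerivAt.comp (e z) h3).congr_of_eventuallyEq ?_
      filter_upwards [hev] with q hq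
      have h5 := (he2 _ (e.map_target hq)).2
      rw [e.right_inv hq] at h5
      exact congrArg Prod.fst h5
    have h5 := h4.unique (hasFDerivAt_fst (𝕜 := ℂ))
    have h6 : μ (fderiv ℂ (fun q => (sg a (e.symm q)).2) (e z) (ξ, 0)) = ξ :=
      congrArg (fun T : Cm 2 × ℂ →L[ℂ] Cm 2 => T (ξ, 0)) h5
    have h7 : HasFDerivAt (fun _ : Cm 2 × ℂ => (1 : ℂ))
        ((ContinuousLinearMap.proj (R := ℂ) (φ := fun _ : Fin n => ℂ) a).comp
          (fderiv ℂ (fun q => (sg a (e.symm q)).2) (e z))) (e z) := by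
      refine ((ContinuousLinearMap.proj (R := ℂ) (φ := fun _ : Fin n => ℂ) a).hasFDerivAt.comp
        (e z) h3).congr_of_eventuallyEq ?_
      filter_upwards [hev] with q hq
      exact (sg_self (he2 _ (e.map_target hq)).1).symm
    have h8 := h7.unique (hasFDerivAt_const (1 : ℂ) (e z))
    have h9 : (fderiv ℂ (fun q => (sg a (e.symm q)).2) (e z) (ξ, 0)) a = 0 :=
      congrArg (fun T : Cm 2 × ℂ →L[ℂ] ℂ => T (ξ, 0)) h8
    rw [hc] at h9 h6
    have h10 : c = 0 := by
      simpa [sg_self ha] using h9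
    rw [← h6, h10, zero_smul, map_zero]

/-- the Fubini-Study metric of the fibres -/
abbrev cifMet (h : CIF Ω G dg) (hn : n = K + 3) (t : ℂ) :
    Chart 2 ((fam h hn).Fib t) → Cm 2 → Matrix (Fin 2) (Fin 2) ℂ := (cifFS h hn).fmet t

theorem isKahler_cifMet (h : CIF Ω G dg) (hn : n = K + 3) (t : ℂ) :
    IsKahler (cifMet h hn t) := (cifFS h hn).isKahler_fmet t

section lin
variable {n' K' : ℕ} {G' : ℂ × VN n' → (Fin K' → ℂ)} {dg' : Fin K' → ℕ}

/-- the map `φ` is induced by the linear map `L` of the homogeneous coordinates -/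
def Ind (L : VN n →L[ℂ] VN n') (φ : TZ Ω G → TZ Ω G') : Prop :=
  ∀ y z, Rep y z → Rep (y.1, L y.2) (φ z)

lemma Ind.lift {L : VN n →L[ℂ] VN n'} {φ : TZ Ω G → TZ Ω G'} (hφ : Ind L φ)
    {M : Type*} [NormedAddCommGroup M] [NormedSpace ℂ M] {g : M → TZ Ω G} {q : M}
    (hg : LiftAt g q) : LiftAt (fun q => φ (g q)) q := by
  obtain ⟨T, hT, hTg⟩ := hg
  refine ⟨fun q => ((T q).1, L (T q).2), ?_, ?_⟩
  · refine (analyticAt_fst.comp hT).prod ?_
    exact AnalyticAt.comp (g := L) (f := fun q => (T q).2) (L.analyticAt _)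
      (analyticAt_snd.comp hT)
  · filter_upwards [hTg] with q' hq'
    exact hφ _ _ hq'

lemma Ind.continuous {L : VN n →L[ℂ] VN n'} {φ : TZ Ω G → TZ Ω G'} (hφ : Ind L φ)
    (h : CIF Ω G dg) (hn : n = K + 3) : Continuous φ := by
  rw [continuous_iff_continuousAt]
  intro z
  obtain ⟨e, he, hz⟩ := exists_pc h hn z
  have h1 : LiftAt (fun q => φ (e.symm q)) (e z) := hφ.lift (he.lift _ (e.map_source hz))
  have h2 : ContinuousAt (fun z' => φ (e.symm (e z'))) z :=
    ContinuousAt.comp (g := fun q => φ (e.symm q)) h1.continuousAt (e.continuousAt hz)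
  refine h2.congr ?_
  filter_upwards [e.open_source.mem_nhds hz] with z' hz'
  rw [e.left_inv hz']

lemma Ind.hol {L : VN n →L[ℂ] VN n'} {φ : TZ Ω G → TZ Ω G'} (hφ : Ind L φ)
    {e : PC (TZ Ω G)} (he : IsPC e) {e' : PC (TZ Ω G')} (he' : IsPC e') {z : TZ Ω G}
    (hz : z ∈ e.source) (hz' : φ z ∈ e'.source) :
    ContDiffAt ℂ ω (fun q => e' (φ (e.symm q))) (e z) := by
  have h1 : LiftAt (fun q => φ (e.symm q)) (e z) := hφ.lift (he.lift _ (e.map_source hz))
  have h2 : AnZ e' (φ (e.symm (e z))) := by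
    rw [e.left_inv hz]
    exact he'.an _ hz'
  exact (AnZ.comp_lift h1 h2).contDiffAt

/-- isometric linear maps preserve the metric of the fibres -/
theorem cifMet_pull (h : CIF Ω G dg) (hn : n = K + 3) (h' : CIF Ω G' dg') (hn' : n' = K' + 3)
    {L : VN n →L[ℂ] VN n'} {φ : TZ Ω G → TZ Ω G'} (hφ : Ind L φ) (hL : ∀ x, nv (L x) = nv x)
    (hp : ∀ z, (φ z).t = z.t) {t : ℂ} (x : (fam h hn).Fib t) {f : Chart 2 ((fam h hn).Fib t)}
    {f' : Chart 2 ((fam h' hn').Fib t)} (hf : At f x)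
    (hf' : At f' (⟨φ x.1, (hp x.1).trans x.2⟩ : (fam h' hn').Fib t)) :
    cifMet h hn t f (f x) =
      (jmat (fun w => f' (⟨φ (f.symm w).1, (hp _).trans (f.symm w).2⟩ : (fam h' hn').Fib t))
        (f x)).transpose * cifMet h' hn' t f' (f' ⟨φ x.1, (hp x.1).trans x.2⟩) *
      (jmat (fun w => f' (⟨φ (f.symm w).1, (hp _).trans (f.symm w).2⟩ : (fam h' hn').Fib t))
        (f x)).map (starRingEnd ℂ) := by
  refine FamFS.fmet_pull (cifFS h hn) (cifFS h' hn') φ (hφ.continuous h hn) hp ?_ ?_ x hf hf'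
  · intro e he e' he' z hz hz'
    exact hφ.hol he he' hz hz'
  · intro z
    obtain ⟨a, ha⟩ := exists_mem_Ua z
    obtain ⟨b, hb⟩ := exists_mem_Ua (φ z)
    have hr := hφ _ _ (rep_sg ha)
    have hb1 : (L (sg a z).2) b ≠ 0 := hr.mem_Ua.mp hb
    refine ⟨a, b, ha, hb, fun y => ((L (sg a y).2) b)⁻¹, inv_ne_zero hb1, ?_, ?_⟩
    · obtain ⟨e, he, hz⟩ := exists_pc h hn z
      refine ⟨e, he, hz, ?_⟩
      have h1 : AnZ (fun z : TZ Ω G => ((L (sg a z).2) b)⁻¹) (e.symm (e z)) := by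
        rw [e.left_inv hz]
        refine (anZ_sg ha).comp (T := fun x : VN n => ((L x) b)⁻¹) ?_
        refine AnalyticAt.inv ?_ hb1
        exact ((ContinuousLinearMap.proj (R := ℂ) (φ := fun _ : Fin n' => ℂ) b).comp L).analyticAt _
      exact (AnZ.comp_lift (he.lift _ (e.map_source hz)) h1).contDiffAt
    · have hc : ContinuousAt (fun y : TZ Ω G => (L (sg a y).2) b) z :=
        ((continuous_apply b).comp L.continuous).continuousAt.comp
          (continuousAt_snd.comp (sg_continuousAt ha))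
      filter_upwards [(isOpen_Ua a).mem_nhds ha, hc.eventually_ne hb1] with y hy hy1
      have hr2 := hφ _ _ (rep_sg hy)
      show nv (sg b (φ y)).2 = _ * nv (sg a y).2
      rw [hr2.sg_eq hy1, nv_smul, hL]

end lin

end Vale.Agent.P298.H265
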